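import Vale.Agent.P129BB.Geo
import Vale.Agent.P129BI.FP

/-!
# Geometric sums of bounded internal sequences
-/

set_option linter.unusedSectionVars false

namespace Vale.Agent.P070ZR

open Vale.Agent.P129B

universe v

variable {N : Type v} [ZM N]
variable {R : Type*} [Field R] [LinearOrder R] [IsStrictOrderedRing R] [Coded N R] [RF N R]
variable {K : Type*} [Field K] [Algebra R K] [Nm K R] [KA R K] [Coded N K] [KF N R K]
variable {E : Type*} [AddCommGroup E] [Module K E] [Nm E R] [NA R K E] [Coded N E] [NS N R K E]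

variable (R K) in
/-- the partial sums of `∑ 2^(-i-1) g i` -/
noncomputable def gps (g : NN N → E) (n : NN N) : E :=
  isum (fun i => algebraMap R K (hp R (i + 1)) • g i) n

variable (R K) in
/-- `s = ∑ 2^(-i-1) g i` -/
def IsGSum (g : NN N → E) (s : E) : Prop := ∀ n, nm (gps R K g n - s) ≤ hp R n

variable {g : NN N → E} {s : E}

theorem defF_gps (hg : DefF N g) : DefF N (fun n => gps R K g n) := by
  unfold gps
  fun_prop

theorem gps_succ (hg : DefF N g) (n : NN N) :
    gps R K g (n + 1) = gps R K g n + algebraMap R K (hp R (n + 1)) • g n :=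
  isum_succ (by fun_prop) n

theorem exists_gsum [Cpl N R E] (hg : DefF N g) (h : ∀ n, nm (g n) ≤ 1) :
    ∃ s, IsGSum R K g s := by
  have h1 : Intl N (fun n => gps R K g n) := (defF_gps hg).toIntl
  obtain ⟨w, hw⟩ := geo (fun n => gps R K g n) (1 / 2 : R) fun j => by
    rw [nm_sub_rev, gps_succ hg, add_sub_cancel_left,
      nm_ofR_smul_of_nonneg (hp_pos (R := R) _).le, hp_succ]
    have h2 := mul_le_mul_of_nonneg_left (h j) (hp_pos (R := R) j).le
    linarith
  exact ⟨w, fun n => (hw n).trans (by linarith)⟩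

theorem IsGSum.nm_le (h : IsGSum R K g s) : nm s ≤ 1 := by
  have h1 := h 0
  rwa [gps, isum_zero, zero_sub, NG.nm_neg, hp_zero] at h1

/-- Closed definable cones contain the sum. -/
theorem IsGSum.ind (h : IsGSum R K g s) (hg : DefF N g) {Q : E → Prop} (hQ : DefF N Q)
    (h0 : Q 0) (hadd : ∀ x y, Q x → Q y → Q (x + y))
    (hsm : ∀ (r : R) (x : E), 0 ≤ r → Q x → Q (algebraMap R K r • x))
    (hcl : ∀ x, (∀ ε : R, 0 < ε → ∃ y, Q y ∧ nm (x - y) < ε) → Q x) (H : ∀ n, Q (g n)) : Q s := by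
  refine hcl s fun ε hε => ?_
  obtain ⟨n, hn⟩ := exists_hp_lt N hε
  refine ⟨gps R K g n, isum_induction hQ h0 hadd (by fun_prop)
    fun i _ => hsm _ _ (hp_pos _).le (H i), ?_⟩
  rw [nm_sub_rev]
  exact (h n).trans_lt (hn n le_rfl)

/-- A bounded real functional which is nonnegative on all terms. -/
theorem IsGSum.le (h : IsGSum R K g s) (hg : DefF N g) {φ : E → R} (hφ : DefF N φ)
    (hadd : ∀ x y, φ (x + y) = φ x + φ y)
    (hsm : ∀ (r : R) (x : E), φ (algebraMap R K r • x) = r * φ x) {C : R}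
    (hC : ∀ x, φ x ≤ C * nm x) (hC0 : 0 ≤ C) (H : ∀ n, 0 ≤ φ (g n)) (j : NN N) :
    hp R (j + 1) * φ (g j) ≤ φ s := by
  have h0 : φ 0 = 0 := by simpa using hsm 0 0
  have key : ∀ n, j < n → hp R (j + 1) * φ (g j) ≤ φ (gps R K g n) := fun n hn => by
    rw [gps, map_isum' hφ h0 hadd (by fun_prop)]
    simp only [hsm]
    exact le_isum (f := fun i => hp R (i + 1) * φ (g i)) (by fun_prop) hn
      fun i _ => mul_nonneg (hp_pos _).le (H i)
  refine le_of_forall_hp N C fun k => ?_
  have h1 := key (max k (j + 1)) (lt_of_lt_of_le (NN.lt_add_one j) (le_max_right _ _))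
  have h2 := hadd (gps R K g (max k (j + 1)) - s) s
  rw [sub_add_cancel] at h2
  have h3 := hC (gps R K g (max k (j + 1)) - s)
  have h4 := mul_le_mul_of_nonneg_left ((h (max k (j + 1))).trans (hp_anti (le_max_left _ _))) hC0
  linarith

/-- A bounded linear map which kills all terms kills the sum. -/
theorem IsGSum.map_eq_zero {F : Type*} [AddCommGroup F] [Module K F] [Nm F R] [NA R K F]
    [Coded N F] [NS N R K F] (h : IsGSum R K g s) (hg : DefF N g) {φ : E → F} (hφ : DefF N φ)
    (hadd : ∀ x y, φ (x + y) = φ x + φ y) (hsm : ∀ (c : K) (x : E), φ (c • x) = c • φ x) {C : R}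
    (hC : ∀ x, nm (φ x) ≤ C * nm x) (hC0 : 0 ≤ C) (H : ∀ n, φ (g n) = 0) : φ s = 0 := by
  have h0 : φ 0 = 0 := by simpa using hsm 0 0
  have key : ∀ n, φ (gps R K g n) = 0 := fun n => by
    rw [gps, map_isum' hφ h0 hadd (by fun_prop)]
    exact isum_eq_zero (by fun_prop) fun i _ => by rw [hsm, H, smul_zero]
  rw [← nm_le_zero_iff (R := R)]
  refine le_of_forall_hp N C fun k => ?_
  have h2 := hadd (s - gps R K g k) (gps R K g k)
  rw [sub_add_cancel, key, add_zero] at h2
  have h3 := hC (s - gps R K g k)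
  rw [nm_sub_rev] at h3
  have h4 := mul_le_mul_of_nonneg_left (h k) hC0
  rw [h2]
  linarith

end Vale.Agent.P070ZR
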