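import Vale.Agent.P070ZR.Abs
import Vale.Agent.P070ZA.Defs
import Vale.Agent.P070ZT.Force

/-!
# Step 4: every vector of an irreducible representation is killed by a determining element
-/

set_option linter.unusedSectionVars false

namespace Vale.Agent.P070Z

open Vale.Agent.P129B Vale.Agent.P070ZT

universe v

variable {N : Type v} [ZM N]
  {R K : Type*} [Nm K R] [Field R] [LinearOrder R] [IsStrictOrderedRing R]
  [Field K] [Algebra R K] [KA R K] [StarRing K] [CX R K] [Coded N R] [RF N R] [Coded N K]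
  [KF N R K] {H : Type*} [AddCommGroup H] [Module K H] [Nm H R] [Ip H K] [IA R K H] [Coded N H]
  [HS N R K H]
  {F : Type*} [AddCommGroup F] [Module K F] [Nm F R] [Ip F K] [IA R K F] [Coded N F] [HS N R K F]
  {L : Type*} [AddCommGroup L] [Module K L] [Nm L R] [Ip L K] [IA R K L] [Coded N L] [HS N R K L]
  {ι : Type*} [Coded N ι] [Tot N ι] [LinearOrder ι] [DefLT N ι]

include R K

theorem URp.hm {A : Set (Op N K H)} {π : Op N K H → Op N K L} (h : URp A π) : Hm A π :=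
  ⟨h.one, h.add, h.mul, h.smul, h.star⟩

theorem reflect_of {P : Op N K H → Op N K F} {A0 : Set (Op N K H)} {k0 U : Op N K H}
    {k u : ι → Op N K H} (hP : URp Set.univ P)
    (sep : ∃ s : NN N → Op N K H, Intl N s ∧ (∀ n, s n ∈ A0) ∧ A0 ⊆ gen (Set.range s))
    (T : IsTower P A0 k0 U k u) {π : Op N K H → Op N K L}
    (hπ : URp (gen (A0 ∪ u '' Set.univ)) π) {η : L} (hη : nm η = 1)
    (kad : ∀ y, ip η y = 0 → ∃ b ∈ gen (A0 ∪ u '' Set.univ), π b η = y ∧ π (star b) η = 0)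
    (ext : ∀ (Tc : ι → Set ι) (S : Set ι) (g : Op N K H), Intl N Tc → Intl N S →
      (∀ i, Tc i ⊆ Set.Iio i ∧ k i ∈ gen (A0 ∪ u '' Tc i) ∧ u i * k0 ∈ gen (A0 ∪ u '' Tc i)) →
      IsCl Tc S → g ∈ gen (A0 ∪ u '' S) → Det P g (gen (A0 ∪ u '' S)) →
      Det P g (gen (A0 ∪ u '' Set.univ))) :
    ∃ κ ∈ gen (A0 ∪ u '' Set.univ), Pos κ ∧ nm κ ≤ 1 ∧ π κ η = 0 ∧
      Det P κ (gen (A0 ∪ u '' Set.univ)) := by
  obtain ⟨s, hs, s1, s2⟩ := sep
  have := T.cs.intl
  have hu := T.du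
  have := hu.toIntl
  have hA : CS N K (gen (A0 ∪ u '' Set.univ)) := cs_gen _
  obtain ⟨κ, h1, h2, h3, h4⟩ := P070ZR.reflect_abs gk_gen (u := u) s s1 s2 (lo := Set.Iio)
    (DefF.setIio DefF.id) T.dk (b := fun i => u i * k0) (by fun_prop) (fun i => (T.good i).k_mem)
    (fun i => (T.good i).uk_mem) hP.defF (fun a b => hP.add a trivial b trivial)
    (fun c a => hP.smul c a trivial) hP.one (fun a => hP.nm_le trivial) hπ.defF hπ.add hπ.smul
    (fun a ha => hπ.nm_le ha) (η := η)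
    (fun x hx => forcing hA.one hA.add hA.mul hA.smul hA.star hπ.hm
      (hP.mono (Set.subset_univ _)).hm hη kad hx) ext
  exact ⟨κ, h1, ⟨h2, h3⟩, h4⟩

end Vale.Agent.P070Z
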