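import Vale.Agent.P070ZR.Sum
import Vale.Agent.P070ZT.Stage

/-!
# Reflection of a vector state to a countable stage
-/

set_option linter.unusedSectionVars false

namespace Vale.Agent.P070ZR

open Vale.Agent.P129B Vale.Agent.P070Z

universe v

variable {N : Type v} [ZM N]
  {R K : Type*} [Nm K R] [Field R] [LinearOrder R] [IsStrictOrderedRing R]
  [Field K] [Algebra R K] [KA R K] [StarRing K] [CX R K] [Coded N R] [RF N R] [Coded N K]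
  [KF N R K] {H : Type*} [AddCommGroup H] [Module K H] [Nm H R] [Ip H K] [IA R K H] [Coded N H]
  [HS N R K H]
  {F : Type*} [AddCommGroup F] [Module K F] [Nm F R] [Ip F K] [IA R K F] [Coded N F] [HS N R K F]
  {L : Type*} [AddCommGroup L] [Module K L] [Nm L R] [Ip L K] [IA R K L] [Coded N L] [HS N R K L]
  {ι : Type*} [Coded N ι] [Tot N ι]

include R K

theorem reflect_abs {gn : Set (Op N K H) → Set (Op N K H)} (G : P070ZT.GK N K gn)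
    {A0 : Set (Op N K H)} [Intl N A0] {u : ι → Op N K H} [Intl N u] (s : NN N → Op N K H)
    [Intl N s] (h1 : ∀ n, s n ∈ A0) (h2 : A0 ⊆ gn (Set.range s)) {lo : ι → Set ι}
    (hlo : DefF N lo) {a b : ι → Op N K H} (ha : DefF N a) (hb : DefF N b)
    (ha' : ∀ i, a i ∈ gn (A0 ∪ u '' lo i)) (hb' : ∀ i, b i ∈ gn (A0 ∪ u '' lo i))
    {P : Op N K H → Op N K F} (hP : DefF N P) (pa : ∀ a b, P (a + b) = P a + P b)
    (ps : ∀ (c : K) a, P (c • a) = c • P a) (p1 : P 1 = 1) (pl : ∀ a, nm (P a) ≤ nm a)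
    {π : Op N K H → Op N K L} (hπ : DefF N π)
    (qa : ∀ a ∈ gn (A0 ∪ u '' Set.univ), ∀ b ∈ gn (A0 ∪ u '' Set.univ), π (a + b) = π a + π b)
    (qs : ∀ (c : K), ∀ a ∈ gn (A0 ∪ u '' Set.univ), π (c • a) = c • π a)
    (ql : ∀ a ∈ gn (A0 ∪ u '' Set.univ), nm (π a) ≤ nm a) {η : L}
    (force : ∀ x ∈ gn (A0 ∪ u '' Set.univ), ∃ κ ∈ gn (A0 ∪ u '' Set.univ), star κ = κ ∧
      (∀ y, 0 ≤ KA.re (ip y (κ y))) ∧ nm κ ≤ 1 ∧ π κ η = 0 ∧
      ∃ c : K, ∀ z w, P κ z = 0 → P κ w = 0 → ip w (P x z) = c * ip w z)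
    (ext : ∀ (Tc : ι → Set ι) (S : Set ι) (g : Op N K H), Intl N Tc → Intl N S →
      (∀ i, Tc i ⊆ lo i ∧ a i ∈ gn (A0 ∪ u '' Tc i) ∧ b i ∈ gn (A0 ∪ u '' Tc i)) → IsCl Tc S →
      g ∈ gn (A0 ∪ u '' S) →
      (∀ x ∈ gn (A0 ∪ u '' S),
        ∃ c : K, ∀ z w, P g z = 0 → P g w = 0 → ip w (P x z) = c * ip w z) →
      ∀ x ∈ gn (A0 ∪ u '' Set.univ),
        ∃ c : K, ∀ z w, P g z = 0 → P g w = 0 → ip w (P x z) = c * ip w z) :
    ∃ κ ∈ gn (A0 ∪ u '' Set.univ), star κ = κ ∧ (∀ y, 0 ≤ KA.re (ip y (κ y))) ∧ nm κ ≤ 1 ∧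
      π κ η = 0 ∧ ∀ x ∈ gn (A0 ∪ u '' Set.univ),
        ∃ c : K, ∀ z w, P κ z = 0 → P κ w = 0 → ip w (P x z) = c * ip w z := by
  have hA : Intl N (gn (A0 ∪ u '' Set.univ)) := G.intl _
  obtain ⟨κ, hκ, H⟩ := exists_intl_choice_on (N := N) (0 : Op N K H)
    (P := fun x => x ∈ gn (A0 ∪ u '' Set.univ))
    (R := fun x κ => κ ∈ gn (A0 ∪ u '' Set.univ) ∧ star κ = κ ∧
      (∀ y, 0 ≤ KA.re (ip y (κ y))) ∧ nm κ ≤ 1 ∧ π κ η = 0 ∧
      ∃ c : K, ∀ z w, P κ z = 0 → P κ w = 0 → ip w (P x z) = c * ip w z)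
    (by fun_prop) (by fun_prop) fun x hx => (force x hx).imp fun κ h => ⟨inferInstance, h⟩
  have hκ' : DefF N κ := DefF.ofIntl κ
  obtain ⟨Tc, S, f, i1, i2, i3, t1, t2, t3, t4⟩ :=
    G.stage (u := u) s h1 h2 hlo ha hb ha' hb' hκ' fun x hx => (H x hx).1
  have hf : DefF N f := DefF.ofIntl f
  have hB := G.cs (A0 ∪ u '' S) inferInstance
  have := hB.intl
  have sub : gn (A0 ∪ u '' S) ⊆ gn (A0 ∪ u '' Set.univ) := G.monoL (Set.subset_univ S)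
  have H' := fun n => H (f n) (sub (t3 n).1)
  obtain ⟨g, g1, g2, g3, g4, g5, g6⟩ := exists_sum (B := gn (A0 ∪ u '' S))
    (by simpa using hB.smul 0 1 hB.one) hB.add hB.smul hB.closed hP pa ps p1 pl hπ
    (fun a ha b hb => qa a (sub ha) b (sub hb)) (fun c a ha => qs c a (sub ha))
    (fun a ha => ql a (sub ha)) (g := fun n => κ (f n)) (by fun_prop) (fun n => (t3 n).2)
    (fun n => (H' n).2.1) (fun n => (H' n).2.2.1) (fun n => (H' n).2.2.2.1)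
    fun n => (H' n).2.2.2.2.1
  refine ⟨g, sub g1, g2, g3, g4, g5, ext Tc S g i1 i2 t1 t2 g1 fun x hx => ?_⟩
  refine (cld_det (P := fun a z => P a z) (fun a b z => ?_)
    (fun a z => Op.le_of_opNorm_le (pl a) z) (fun z => P g z = 0)).icl_sub
    (S := Set.range f) ?_ (t4 hx)
  · have h3 := pa (a - b) b
    rw [sub_add_cancel] at h3
    rw [h3, Op.add_apply, add_sub_cancel_right]
  · rintro _ ⟨n, rfl⟩
    obtain ⟨c, hc⟩ := (H' n).2.2.2.2.2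
    exact ⟨c, fun z w hz hw => hc z w (g6 z hz n) (g6 w hw n)⟩

end Vale.Agent.P070ZR
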