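import Vale.Agent.P070ZR.GSum
import Vale.Agent.P070ZA.Hs

/-!
# Kernels of geometric sums; the determined elements form a closed set
-/

set_option linter.unusedSectionVars false

namespace Vale.Agent.P070ZR

open Vale.Agent.P129B Vale.Agent.P070Z

universe v

variable {N : Type v} [ZM N]
variable {R K : Type*} [Nm K R] [Field R] [LinearOrder R] [IsStrictOrderedRing R]
  [Field K] [Algebra R K] [KA R K] [StarRing K] [CX R K]
variable {F : Type*} [AddCommGroup F] [Module K F] [Nm F R] [Ip F K] [IA R K F]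

section Pos

/-- `‖T x‖² ≤ ⟨x, T x⟩` for a positive contraction. -/
theorem sq_le_re {T : F → F} (hsub : ∀ x y, T (x - y) = T x - T y)
    (hsa : ∀ x y, ip (T x) y = ip x (T y)) (hpos : ∀ x, 0 ≤ KA.re (ip x (T x)))
    (hc : ∀ x, nm (T x) ≤ nm x) (x : F) : nm (T x) ^ 2 ≤ KA.re (ip x (T x)) := by
  have h1 := hpos (x - T x)
  rw [hsub, ip_sub_right, ip_sub_left, ip_sub_left, ← hsa x (T x)] at h1
  simp only [map_sub, re_ip_self] at h1
  have h2 := re_ip_le (T x) (T (T x))
  have h3 := mul_le_mul_of_nonneg_left (hc (T x)) (nm_nonneg (T x))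
  nlinarith

theorem one_sub_le {T : F → F} (hsub : ∀ x y, T (x - y) = T x - T y)
    (hsa : ∀ x y, ip (T x) y = ip x (T y)) (hpos : ∀ x, 0 ≤ KA.re (ip x (T x)))
    (hc : ∀ x, nm (T x) ≤ nm x) (x : F) : nm (x - T x) ≤ nm x := by
  refine le_of_sq_le_sq ?_ (nm_nonneg x)
  have h1 := sq_le_re hsub hsa hpos hc x
  have h2 := hpos x
  rw [nm_sub_sq]
  linarith

theorem sq_le_two_re {x y : F} (H : nm (x - y) ≤ nm x) : nm y ^ 2 ≤ 2 * KA.re (ip x y) := by
  have h1 := pow_le_pow_left₀ (nm_nonneg _) H 2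
  rw [nm_sub_sq] at h1
  linarith

end Pos

variable {B : Type*} [AddCommGroup B] [Module K B] [Nm B R] [NA R K B]

/-- The elements which are scalars on `V` form a closed set. -/
theorem cld_det {P : B → F → F} (sub : ∀ a b z, P (a - b) z = P a z - P b z)
    (le : ∀ a z, nm (P a z) ≤ nm a * nm z) (V : F → Prop) :
    Cld {x : B | ∃ c : K, ∀ z w, V z → V w → ip w (P x z) = c * ip w z} := by
  by_cases h : ∃ z0, V z0 ∧ z0 ≠ 0
  · obtain ⟨z0, h0, h1⟩ := h
    have h2 : ip z0 z0 ≠ 0 := fun e => h1 (ip_self_eq_zero.1 e)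
    have h3 : ∀ a b z w, nm (ip w (P a z) - ip w (P b z)) ≤ nm w * nm z * nm (a - b) :=
      fun a b z w => by
        rw [← ip_sub_right, ← sub]
        have := mul_le_mul_of_nonneg_left (le (a - b) z) (nm_nonneg w)
        linarith [nm_ip_le w (P (a - b) z)]
    have h4 : Cld {x : B | ∀ z w, V z → V w →
        ip w (P x z) - ip z0 (P x z0) * (ip w z / ip z0 z0) = 0} :=
      cld_forall fun z => cld_forall fun w => cld_forall fun _ => cld_forall fun _ =>
        cld_eq_zero (C := nm w * nm z + nm z0 * nm z0 * nm (ip w z / ip z0 z0)) fun a b => by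
          have e : ip w (P a z) - ip z0 (P a z0) * (ip w z / ip z0 z0) -
              (ip w (P b z) - ip z0 (P b z0) * (ip w z / ip z0 z0)) =
              (ip w (P a z) - ip w (P b z)) -
                (ip z0 (P a z0) - ip z0 (P b z0)) * (ip w z / ip z0 z0) := by ring
          rw [e]
          refine (nm_sub_le _ _).trans ?_
          rw [KA.nm_mul]
          have := mul_le_mul_of_nonneg_right (h3 a b z0 z0) (nm_nonneg (ip w z / ip z0 z0))
          linarith [h3 a b z w]
    intro x hx
    have h5 := h4.icl_sub (S := {x : B | ∃ c : K, ∀ z w, V z → V w → ip w (P x z) = c * ip w z})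
      (fun y ⟨c, hc⟩ z w hz hw => by
        rw [hc z w hz hw, hc z0 z0 h0 h0]
        field_simp
        ring) hx
    exact ⟨ip z0 (P x z0) / ip z0 z0, fun z w hz hw => by
      rw [sub_eq_zero.1 (h5 z w hz hw)]
      ring⟩
  · intro x _
    refine ⟨0, fun z w _ hw => ?_⟩
    rw [of_not_not fun e => h ⟨w, hw, e⟩, ip_zero_left, zero_mul]

variable [Coded N R] [RF N R] [Coded N K] [KF N R K] [Coded N F] [HS N R K F] [Coded N B]
  [NS N R K B]

/-- The kernel of a sum of positive elements. -/
theorem IsGSum.ker {g : NN N → B} {s : B} (h : IsGSum R K g s) (hg : DefF N g) {P : B → F → F}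
    {z : F} (hP : DefF N (fun a => P a z)) (add : ∀ a b, P (a + b) z = P a z + P b z)
    (smul : ∀ (c : K) a, P (c • a) z = c • P a z) (le : ∀ a, nm (P a z) ≤ nm a * nm z)
    (hpos : ∀ n, nm (P (g n) z) ^ 2 ≤ 2 * KA.re (ip z (P (g n) z))) (hz : P s z = 0)
    (n : NN N) : P (g n) z = 0 := by
  have h1 := h.le hg (φ := fun a => KA.re (ip z (P a z))) (by fun_prop)
    (fun a b => by rw [add, ip_add_right, map_add])
    (fun r a => by rw [smul, ip_smul_right, KA.re_ofR_mul]) (C := nm z * nm z)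
    (fun a => by
      have := mul_le_mul_of_nonneg_left (le a) (nm_nonneg z)
      linarith [re_ip_le z (P a z)])
    (mul_self_nonneg _) (fun n => by linarith [hpos n, sq_nonneg (nm (P (g n) z))]) n
  simp only [hz, ip_zero_right, map_zero] at h1
  have h2 := nonpos_of_mul_nonpos_right h1 (hp_pos (R := R) (n + 1))
  have h3 := hpos n
  exact nm_eq_zero.1 (pow_eq_zero_iff two_ne_zero |>.1
    (le_antisymm (by linarith) (sq_nonneg _)))

end Vale.Agent.P070ZR
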