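import Vale.Agent.P070ZR.Reflect
import Vale.Agent.P070ZW.Tower

/-!
# Step 4 from Kadison's transitivity theorem
-/

set_option linter.unusedSectionVars false

namespace Vale.Agent.P070Z

open Vale.Agent.P129B Vale.Agent.P070ZT

universe v

variable {N : Type v} [ZM N]
  {R K : Type*} [Nm K R] [Field R] [LinearOrder R] [IsStrictOrderedRing R]
  [Field K] [Algebra R K] [KA R K] [StarRing K] [CX R K] [Coded N R] [RF N R] [Coded N K]
  [KF N R K] {H : Type*} [AddCommGroup H] [Module K H] [Nm H R] [Ip H K] [IA R K H] [Coded N H]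
  [HS N R K H]
  {F : Type*} [AddCommGroup F] [Module K F] [Nm F R] [Ip F K] [IA R K F] [Coded N F] [HS N R K F]
  {L : Type*} [AddCommGroup L] [Module K L] [Nm L R] [Ip L K] [IA R K L] [Coded N L] [HS N R K L]
  {ι : Type*} [Coded N ι] [Tot N ι] [LinearOrder ι] [DefLT N ι] [IWO N ι]

include R K

theorem reflect_kad {P : Op N K H → Op N K F} {A0 : Set (Op N K H)} {k0 U : Op N K H}
    {k u : ι → Op N K H} (hP : URp Set.univ P)
    (sep : ∃ s : NN N → Op N K H, Intl N s ∧ (∀ n, s n ∈ A0) ∧ A0 ⊆ gen (Set.range s))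
    (T : IsTower P A0 k0 U k u) {π : Op N K H → Op N K L}
    (hπ : URp (gen (A0 ∪ u '' Set.univ)) π) {η : L} (hη : nm η = 1)
    (kad : ∀ y, ip η y = 0 → ∃ b ∈ gen (A0 ∪ u '' Set.univ), π b η = y ∧ π (star b) η = 0) :
    ∃ κ ∈ gen (A0 ∪ u '' Set.univ), Pos κ ∧ nm κ ≤ 1 ∧ π κ η = 0 ∧
      Det P κ (gen (A0 ∪ u '' Set.univ)) :=
  reflect_of hP sep T hπ hη kad fun _ _ _ _ _ hT hS hg hD => tower_ext hP T hT hS hg hD

end Vale.Agent.P070Z
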