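import Vale.Agent.P070ZR.Core
import Vale.Agent.P070ZA.Op

/-!
# One positive operator whose kernels are contained in the kernels of countably many
-/

set_option linter.unusedSectionVars false

namespace Vale.Agent.P070ZR

open Vale.Agent.P129B Vale.Agent.P070Z

universe v

variable {N : Type v} [ZM N]
  {R K : Type*} [Nm K R] [Field R] [LinearOrder R] [IsStrictOrderedRing R]
  [Field K] [Algebra R K] [KA R K] [StarRing K] [CX R K] [Coded N R] [RF N R] [Coded N K]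
  [KF N R K] {H : Type*} [AddCommGroup H] [Module K H] [Nm H R] [Ip H K] [IA R K H] [Coded N H]
  [HS N R K H]
  {F : Type*} [AddCommGroup F] [Module K F] [Nm F R] [Ip F K] [IA R K F] [Coded N F] [HS N R K F]
  {L : Type*} [AddCommGroup L] [Module K L] [Nm L R] [Ip L K] [IA R K L] [Coded N L] [HS N R K L]

include R K

theorem nm_one_sub_le {k : Op N K H} (hsa : star k = k) (hpos : ∀ x, 0 ≤ KA.re (ip x (k x)))
    (hk : nm k ≤ 1) : nm (1 - k) ≤ 1 :=
  Op.opNorm_le zero_le_one fun x => by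
    rw [one_mul]
    exact one_sub_le (map_sub k) (ip_sa hsa) hpos
      (fun y => by simpa using Op.le_of_opNorm_le hk y) x

theorem cld_pos : Cld {k : Op N K H | star k = k ∧ ∀ x, 0 ≤ KA.re (ip x (k x))} := by
  intro k hk
  refine ⟨sub_eq_zero.1 (cld_eq_zero (f := fun k : Op N K H => star k - k) (C := 2)
    (fun a b => ?_) (icl_mono (fun a ha => sub_eq_zero.2 ha.1) hk)), fun x => ?_⟩
  · rw [sub_sub_sub_comm, ← star_sub]
    have := nm_sub_le (star (a - b)) (a - b)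
    rw [Op.nm_star] at this
    linarith
  · refine le_of_forall_pos_le_add fun ε hε => ?_
    have h0 : 0 < nm x * nm x + 1 := by nlinarith [mul_self_nonneg (nm x)]
    obtain ⟨a, ha, h1⟩ := hk (ε / (nm x * nm x + 1)) (div_pos hε h0)
    rw [nm_sub_rev, lt_div_iff₀ h0] at h1
    have h2 := re_ip_le x ((a - k) x)
    have h3 := mul_le_mul_of_nonneg_left ((a - k).le_opNorm x) (nm_nonneg x)
    rw [Op.sub_apply, ip_sub_right, map_sub] at h2
    rw [Op.sub_apply] at h3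
    nlinarith [ha.2 x, nm_nonneg (a - k)]

theorem exists_sum {B : Set (Op N K H)} [Intl N B] (b0 : 0 ∈ B)
    (ba : ∀ a ∈ B, ∀ b ∈ B, a + b ∈ B) (bs : ∀ (c : K), ∀ a ∈ B, c • a ∈ B) (bc : Cld B)
    {P : Op N K H → Op N K F} (hP : DefF N P) (pa : ∀ a b, P (a + b) = P a + P b)
    (ps : ∀ (c : K) a, P (c • a) = c • P a) (p1 : P 1 = 1) (pl : ∀ a, nm (P a) ≤ nm a)
    {π : Op N K H → Op N K L} (hπ : DefF N π) (qa : ∀ a ∈ B, ∀ b ∈ B, π (a + b) = π a + π b)
    (qs : ∀ (c : K), ∀ a ∈ B, π (c • a) = c • π a) (ql : ∀ a ∈ B, nm (π a) ≤ nm a)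
    {g : NN N → Op N K H} (hg : DefF N g) (gB : ∀ n, g n ∈ B) (gs : ∀ n, star (g n) = g n)
    (gp : ∀ n x, 0 ≤ KA.re (ip x (g n x))) (gl : ∀ n, nm (g n) ≤ 1) {η : L}
    (hη : ∀ n, π (g n) η = 0) :
    ∃ s ∈ B, star s = s ∧ (∀ x, 0 ≤ KA.re (ip x (s x))) ∧ nm s ≤ 1 ∧ π s η = 0 ∧
      ∀ z, P s z = 0 → ∀ n, P (g n) z = 0 := by
  obtain ⟨s, hs⟩ := exists_gsum (K := K) hg gl
  have h1 : s ∈ B ∧ π s η = 0 := by
    refine hs.ind hg (Q := fun a => a ∈ B ∧ π a η = 0) (by fun_prop) ⟨b0, ?_⟩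
      (fun a b ha hb => ⟨ba a ha.1 b hb.1, by
        rw [qa a ha.1 b hb.1, Op.add_apply, ha.2, hb.2, add_zero]⟩)
      (fun r a _ ha => ⟨bs _ a ha.1, by rw [qs _ a ha.1, Op.smul_apply, ha.2, smul_zero]⟩)
      (fun a ha => ?_) fun n => ⟨gB n, hη n⟩
    · have := qs 0 0 b0
      rw [zero_smul, zero_smul] at this
      rw [this, Op.zero_apply]
    · have aB : a ∈ B := bc fun ε hε => (ha ε hε).imp fun b hb => ⟨hb.1.1, hb.2⟩
      refine ⟨aB, nm_le_zero_iff.1 (le_of_forall_pos_le_add fun ε hε => ?_)⟩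
      have h0 : 0 < nm η + 1 := by linarith [nm_nonneg η]
      obtain ⟨b, ⟨bB, hb⟩, h2⟩ := ha (ε / (nm η + 1)) (div_pos hε h0)
      have dB : a - b ∈ B := by
        rw [sub_eq_add_neg, ← neg_one_smul K b]
        exact ba a aB _ (bs _ b bB)
      have h3 := qa _ dB b bB
      rw [sub_add_cancel] at h3
      rw [h3, Op.add_apply, hb, add_zero]
      rw [lt_div_iff₀ h0] at h2
      nlinarith [Op.le_of_opNorm_le (ql _ dB) η, nm_nonneg (a - b)]
  have h2 := hs.ind hg (Q := fun k => star k = k ∧ ∀ x, 0 ≤ KA.re (ip x (k x))) (by fun_prop)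
    ⟨star_zero _, fun x => by simp⟩
    (fun a b ha hb => ⟨by rw [star_add, ha.1, hb.1], fun x => by
      rw [Op.add_apply, ip_add_right, map_add]
      exact add_nonneg (ha.2 x) (hb.2 x)⟩)
    (fun r a hr ha => ⟨by rw [star_smul, star_ofR, ha.1], fun x => by
      rw [Op.smul_apply, ip_smul_right, KA.re_ofR_mul]
      exact mul_nonneg hr (ha.2 x)⟩)
    (fun a ha => cld_pos ha) fun n => ⟨gs n, gp n⟩
  refine ⟨s, h1.1, h2.1, h2.2, hs.nm_le, h1.2, fun z hz => ?_⟩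
  refine hs.ker hg (P := fun a z => P a z) (by fun_prop) (fun a b => by rw [pa, Op.add_apply])
    (fun c a => by rw [ps, Op.smul_apply]) (fun a => Op.le_of_opNorm_le (pl a) z) (fun n => ?_) hz
  refine sq_le_two_re ?_
  have h3 := pa (1 - g n) (g n)
  rw [sub_add_cancel, p1] at h3
  have h4 := Op.le_of_opNorm_le ((pl _).trans (nm_one_sub_le (gs n) (gp n) (gl n))) z
  rwa [← sub_eq_iff_eq_add.2 h3, Op.sub_apply, Op.one_apply, one_mul] at h4

end Vale.Agent.P070ZR
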